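import Mathlib

/-!
# P355 helper: `6` is not a norm from `ℚ(i)` nor from `ℚ(√-3)`

`x² + y² = 6` and `x² - x y + y² = 6` have no rational solutions (descent at the primes
`3` and `2`).
-/

namespace Vale.Agent.H69.P355

/-- Descent at `3`: `a² + b² = 6 c²` over `ℤ` forces `c = 0`. -/
theorem int_two_sq : ∀ (n : ℕ) (a b c : ℤ), c.natAbs = n → a ^ 2 + b ^ 2 = 6 * c ^ 2 → c = 0 := by
  intro n
  induction n using Nat.strong_induction_on with
  | _ n ih =>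
    intro a b c hn h
    by_contra hc
    have hmod : (a ^ 2 + b ^ 2) % 3 = 0 := by
      rw [h]
      have : (6 : ℤ) * c ^ 2 = 3 * (2 * c ^ 2) := by ring
      rw [this]
      exact Int.mul_emod_right 3 _
    have key : (a ^ 2 + b ^ 2) % 3 = ((a % 3) ^ 2 + (b % 3) ^ 2) % 3 := by
      simp [pow_two, Int.add_emod, Int.mul_emod]
    rw [key] at hmod
    have ha : a % 3 = 0 ∨ a % 3 = 1 ∨ a % 3 = 2 := by omega
    have hb : b % 3 = 0 ∨ b % 3 = 1 ∨ b % 3 = 2 := by omega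
    have hab : a % 3 = 0 ∧ b % 3 = 0 := by
      rcases ha with ha | ha | ha <;> rcases hb with hb | hb | hb <;>
        rw [ha, hb] at hmod <;> norm_num at hmod <;> exact ⟨ha, hb⟩
    obtain ⟨a', rfl⟩ : (3 : ℤ) ∣ a := Int.dvd_of_emod_eq_zero hab.1
    obtain ⟨b', rfl⟩ : (3 : ℤ) ∣ b := Int.dvd_of_emod_eq_zero hab.2
    have h2 : 3 * (a' ^ 2 + b' ^ 2) = 2 * c ^ 2 := by linarith
    have h3 : (3 : ℤ) ∣ 2 * c ^ 2 := ⟨_, h2.symm⟩
    have h4 : (3 : ℤ) ∣ c ^ 2 :=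
      (Int.prime_three.dvd_or_dvd h3).resolve_left (by norm_num)
    obtain ⟨c', rfl⟩ : (3 : ℤ) ∣ c := Int.prime_three.dvd_of_dvd_pow h4
    have hc' : c' ≠ 0 := by
      rintro rfl
      exact hc (by simp)
    have hlt : c'.natAbs < n := by
      rw [← hn, Int.natAbs_mul]
      have : 0 < c'.natAbs := Int.natAbs_pos.mpr hc'
      simp
      omega
    have h5 : a' ^ 2 + b' ^ 2 = 6 * c' ^ 2 := by linarith
    exact hc' (ih _ hlt a' b' c' rfl h5)

/-- Descent at `2`: `a² - a b + b² = 6 c²` over `ℤ` forces `c = 0`. -/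
theorem int_eis : ∀ (n : ℕ) (a b c : ℤ), c.natAbs = n →
    a ^ 2 - a * b + b ^ 2 = 6 * c ^ 2 → c = 0 := by
  intro n
  induction n using Nat.strong_induction_on with
  | _ n ih =>
    intro a b c hn h
    by_contra hc
    have hmod : (a ^ 2 - a * b + b ^ 2) % 2 = 0 := by
      rw [h]
      have : (6 : ℤ) * c ^ 2 = 2 * (3 * c ^ 2) := by ring
      rw [this]
      exact Int.mul_emod_right 2 _
    have key : (a ^ 2 - a * b + b ^ 2) % 2
        = ((a % 2) ^ 2 - (a % 2) * (b % 2) + (b % 2) ^ 2) % 2 := by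
      simp [pow_two, Int.add_emod, Int.sub_emod, Int.mul_emod]
    rw [key] at hmod
    have ha : a % 2 = 0 ∨ a % 2 = 1 := by omega
    have hb : b % 2 = 0 ∨ b % 2 = 1 := by omega
    have hab : a % 2 = 0 ∧ b % 2 = 0 := by
      rcases ha with ha | ha <;> rcases hb with hb | hb <;>
        rw [ha, hb] at hmod <;> norm_num at hmod <;> exact ⟨ha, hb⟩
    obtain ⟨a', rfl⟩ : (2 : ℤ) ∣ a := Int.dvd_of_emod_eq_zero hab.1
    obtain ⟨b', rfl⟩ : (2 : ℤ) ∣ b := Int.dvd_of_emod_eq_zero hab.2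
    have h2 : 2 * (a' ^ 2 - a' * b' + b' ^ 2) = 3 * c ^ 2 := by linarith
    have h3 : (2 : ℤ) ∣ 3 * c ^ 2 := ⟨_, h2.symm⟩
    have h4 : (2 : ℤ) ∣ c ^ 2 :=
      (Int.prime_two.dvd_or_dvd h3).resolve_left (by norm_num)
    obtain ⟨c', rfl⟩ : (2 : ℤ) ∣ c := Int.prime_two.dvd_of_dvd_pow h4
    have hc' : c' ≠ 0 := by
      rintro rfl
      exact hc (by simp)
    have hlt : c'.natAbs < n := by
      rw [← hn, Int.natAbs_mul]
      have : 0 < c'.natAbs := Int.natAbs_pos.mpr hc'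
      simp
      omega
    have h5 : a' ^ 2 - a' * b' + b' ^ 2 = 6 * c' ^ 2 := by linarith
    exact hc' (ih _ hlt a' b' c' rfl h5)

/-- `6` is not a sum of two rational squares. -/
theorem rat_two_sq (X Y : ℚ) : X ^ 2 + Y ^ 2 ≠ 6 := by
  intro h
  have hX : (X.den : ℚ) ≠ 0 := Nat.cast_ne_zero.mpr X.den_nz
  have hY : (Y.den : ℚ) ≠ 0 := Nat.cast_ne_zero.mpr Y.den_nz
  have h' : ((X.num : ℚ) / X.den) ^ 2 + ((Y.num : ℚ) / Y.den) ^ 2 = 6 := by
    rw [Rat.num_div_den, Rat.num_div_den]; exact h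
  have key : ((X.num * Y.den : ℤ) : ℚ) ^ 2 + ((Y.num * X.den : ℤ) : ℚ) ^ 2
      = 6 * ((X.den * Y.den : ℤ) : ℚ) ^ 2 := by
    push_cast
    field_simp at h'
    linarith
  have key' : (X.num * Y.den : ℤ) ^ 2 + (Y.num * X.den : ℤ) ^ 2
      = 6 * ((X.den : ℤ) * Y.den) ^ 2 := by exact_mod_cast key
  have h0 := int_two_sq _ _ _ _ rfl key'
  have hXd : (X.den : ℤ) ≠ 0 := by exact_mod_cast X.den_nz
  have hYd : (Y.den : ℤ) ≠ 0 := by exact_mod_cast Y.den_nz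
  exact (mul_ne_zero hXd hYd) h0

/-- `6` is not a value of the rational form `x² - x y + y²`. -/
theorem rat_eis (X Y : ℚ) : X ^ 2 - X * Y + Y ^ 2 ≠ 6 := by
  intro h
  have hX : (X.den : ℚ) ≠ 0 := Nat.cast_ne_zero.mpr X.den_nz
  have hY : (Y.den : ℚ) ≠ 0 := Nat.cast_ne_zero.mpr Y.den_nz
  have h' : ((X.num : ℚ) / X.den) ^ 2 - ((X.num : ℚ) / X.den) * ((Y.num : ℚ) / Y.den)
      + ((Y.num : ℚ) / Y.den) ^ 2 = 6 := by
    rw [Rat.num_div_den, Rat.num_div_den]; exact h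
  have key : ((X.num * Y.den : ℤ) : ℚ) ^ 2 - ((X.num * Y.den : ℤ) : ℚ) * ((Y.num * X.den : ℤ) : ℚ)
      + ((Y.num * X.den : ℤ) : ℚ) ^ 2 = 6 * ((X.den * Y.den : ℤ) : ℚ) ^ 2 := by
    push_cast
    field_simp at h'
    linarith
  have key' : (X.num * Y.den : ℤ) ^ 2 - (X.num * Y.den : ℤ) * (Y.num * X.den : ℤ)
      + (Y.num * X.den : ℤ) ^ 2 = 6 * ((X.den : ℤ) * Y.den) ^ 2 := by exact_mod_cast key
  have h0 := int_eis _ _ _ _ rfl key'
  have hXd : (X.den : ℤ) ≠ 0 := by exact_mod_cast X.den_nz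
  have hYd : (Y.den : ℤ) ≠ 0 := by exact_mod_cast Y.den_nz
  exact (mul_ne_zero hXd hYd) h0

end Vale.Agent.H69.P355
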