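import Mathlib

/-!
# P355: statement-level definitions

`omega` is the primitive cube root of unity with real part `-1/2` and imaginary part `√3/2`,
so that `ℚ(√-3) = ℚ + ℚ omega`.
`RatMultiple θ v` says that the vector `v` of `ℂ⁶` is a complex multiple of a vector all of whose
coordinates are of the form `p + q θ` with `p, q` rational.
`Unbiased x y` says `|⟨x, y⟩|² = 1/6`, and `tripleProduct x y z = ⟨x, y⟩ ⟨y, z⟩ ⟨z, x⟩`.
-/

namespace Vale.Agent.H69.P355

/-- The primitive cube root of unity: real part `-1/2`, imaginary part `√3/2`. -/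
noncomputable def omega : ℂ := ⟨-1 / 2, Real.sqrt 3 / 2⟩

/-- `v` is a complex multiple of a vector all of whose coordinates are of the form
`p + q θ` with `p, q` rational (for `θ = i`: coordinates in `ℚ(i)`; for `θ = omega`: coordinates in
`ℚ(√-3)`). -/
def RatMultiple (θ : ℂ) (v : EuclideanSpace ℂ (Fin 6)) : Prop :=
  ∃ (c : ℂ) (p q : Fin 6 → ℚ), ∀ k, v k = c * ((p k : ℂ) + (q k : ℂ) * θ)

/-- Two vectors of `ℂ⁶` are unbiased: `|⟨x, y⟩|² = 1/6`. -/
def Unbiased (x y : EuclideanSpace ℂ (Fin 6)) : Prop := ‖inner ℂ x y‖ ^ 2 = 1 / 6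

/-- The triple product `⟨x, y⟩ ⟨y, z⟩ ⟨z, x⟩` (Bargmann invariant) of three vectors of `ℂ⁶`. -/
noncomputable def tripleProduct (x y z : EuclideanSpace ℂ (Fin 6)) : ℂ :=
  inner ℂ x y * inner ℂ y z * inner ℂ z x

end Vale.Agent.H69.P355
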