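import Mathlib
import Vale.Agent.H69.P355.Arith
import Vale.Agent.H69.P355.Defs

/-!
# P355 helper: the Bargmann invariant of three pairwise unbiased unit vectors of `ℂ⁶`
is not in `ℚ(i)` and not in `ℚ(√-3)`
-/

open Complex

namespace Vale.Agent.H69.P355

theorem omega_sq : omega ^ 2 = -omega - 1 := by
  apply Complex.ext
  · simp only [omega, pow_two, Complex.mul_re, Complex.sub_re, Complex.neg_re, Complex.one_re]
    have h3 : Real.sqrt 3 * Real.sqrt 3 = 3 := Real.mul_self_sqrt (by norm_num)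
    nlinarith [h3]
  · simp only [omega, pow_two, Complex.mul_im, Complex.sub_im, Complex.neg_im, Complex.one_im]
    ring

theorem omega_conj : (starRingEnd ℂ) omega = -omega - 1 := by
  apply Complex.ext
  · simp only [omega, Complex.conj_re, Complex.sub_re, Complex.neg_re, Complex.one_re]
    ring
  · simp only [omega, Complex.conj_im, Complex.sub_im, Complex.neg_im, Complex.one_im]
    ring

theorem normSq_rat_I (p q : ℚ) : Complex.normSq ((p : ℂ) + (q : ℂ) * Complex.I)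
    = ((p ^ 2 + q ^ 2 : ℚ) : ℝ) := by
  have h := Complex.normSq_add_mul_I (p : ℝ) (q : ℝ)
  push_cast at h ⊢
  exact h

theorem normSq_rat_omega (p q : ℚ) : Complex.normSq ((p : ℂ) + (q : ℂ) * omega)
    = ((p ^ 2 - p * q + q ^ 2 : ℚ) : ℝ) := by
  have h3 : Real.sqrt 3 * Real.sqrt 3 = 3 := Real.mul_self_sqrt (by norm_num)
  rw [Complex.normSq_apply]
  simp only [omega, Complex.add_re, Complex.add_im, Complex.mul_re, Complex.mul_im,
    Complex.ratCast_re, Complex.ratCast_im]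
  push_cast
  nlinarith [h3]

/-- A generator `θ` of an imaginary quadratic field: `θ² = t θ - n`, `conj θ = t - θ`. -/
structure QuadGen (θ : ℂ) (t n : ℚ) : Prop where
  sq : θ ^ 2 = (t : ℂ) * θ - (n : ℂ)
  conj : (starRingEnd ℂ) θ = (t : ℂ) - θ

theorem quadGen_I : QuadGen Complex.I 0 1 := by
  constructor
  · simp
  · simp

theorem quadGen_omega : QuadGen omega (-1) 1 := by
  constructor
  · rw [omega_sq]; push_cast; ring
  · rw [omega_conj]; push_cast; ring

/-- Membership in `ℚ + ℚ θ`. -/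
def InK (θ : ℂ) (z : ℂ) : Prop := ∃ p q : ℚ, z = (p : ℂ) + (q : ℂ) * θ

theorem InK.add {θ z w : ℂ} (hz : InK θ z) (hw : InK θ w) : InK θ (z + w) := by
  obtain ⟨p, q, rfl⟩ := hz
  obtain ⟨p', q', rfl⟩ := hw
  exact ⟨p + p', q + q', by push_cast; ring⟩

theorem InK.zero (θ : ℂ) : InK θ 0 := ⟨0, 0, by simp⟩

theorem InK.mul {θ : ℂ} {t n : ℚ} (hθ : QuadGen θ t n) {z w : ℂ} (hz : InK θ z) (hw : InK θ w) :
    InK θ (z * w) := by
  obtain ⟨p, q, rfl⟩ := hz
  obtain ⟨p', q', rfl⟩ := hw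
  refine ⟨p * p' - q * q' * n, p * q' + q * p' + q * q' * t, ?_⟩
  push_cast
  linear_combination (q : ℂ) * (q' : ℂ) * hθ.sq

theorem InK.conj {θ : ℂ} {t n : ℚ} (hθ : QuadGen θ t n) {z : ℂ} (hz : InK θ z) :
    InK θ ((starRingEnd ℂ) z) := by
  obtain ⟨p, q, rfl⟩ := hz
  refine ⟨p + q * t, -q, ?_⟩
  simp only [map_add, map_mul, map_ratCast, hθ.conj]
  push_cast
  ring

theorem InK.ratMul {θ : ℂ} (r : ℚ) {z : ℂ} (hz : InK θ z) : InK θ ((r : ℂ) * z) := by
  obtain ⟨p, q, rfl⟩ := hz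
  exact ⟨r * p, r * q, by push_cast; ring⟩

theorem InK.sum {θ : ℂ} {ι : Type} (s : Finset ι) (f : ι → ℂ) (h : ∀ i ∈ s, InK θ (f i)) :
    InK θ (∑ i ∈ s, f i) := by
  classical
  induction s using Finset.induction_on with
  | empty => simpa using InK.zero θ
  | insert a s ha ih =>
    rw [Finset.sum_insert ha]
    exact (h a (Finset.mem_insert_self a s)).add
      (ih (fun i hi => h i (Finset.mem_insert_of_mem hi)))

/-- the squared modulus of an element of `ℚ + ℚ θ` is rational -/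
theorem InK.normSq_rat {θ : ℂ} {t n : ℚ} (hθ : QuadGen θ t n) {z : ℂ} (hz : InK θ z) :
    ∃ r : ℚ, ((Complex.normSq z : ℝ) : ℂ) = (r : ℂ) := by
  obtain ⟨p, q, rfl⟩ := hz
  refine ⟨p ^ 2 + p * q * t + q ^ 2 * n, ?_⟩
  rw [← Complex.mul_conj]
  simp only [map_add, map_mul, map_ratCast, hθ.conj]
  push_cast
  linear_combination (-(q : ℂ) ^ 2) * hθ.sq

end Vale.Agent.H69.P355
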