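import Mathlib
import Vale.Agent.H69.P355.Field

/-!
# P355 helper: three pairwise unbiased unit vectors of `ℂ⁶` are not all defined over `ℚ(i)`,
nor all over `ℚ(√-3)`
-/

open Complex

namespace Vale.Agent.H69.P355

/-- a product of three complex numbers of squared modulus `1/6` is not in `ℚ(i)` -/
theorem triple_not_I (a b c : ℂ) (ha : ‖a‖ ^ 2 = 1 / 6) (hb : ‖b‖ ^ 2 = 1 / 6)
    (hc : ‖c‖ ^ 2 = 1 / 6) (p q : ℚ) : a * b * c ≠ (p : ℂ) + (q : ℂ) * Complex.I := by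
  intro h
  have h1 : Complex.normSq (a * b * c) = (1 / 6) ^ 3 := by
    rw [Complex.normSq_mul, Complex.normSq_mul, Complex.normSq_eq_norm_sq,
      Complex.normSq_eq_norm_sq, Complex.normSq_eq_norm_sq, ha, hb, hc]
    ring
  rw [h, normSq_rat_I] at h1
  have h2 : (p ^ 2 + q ^ 2 : ℚ) = (1 / 6) ^ 3 := by
    have h3 : ((p ^ 2 + q ^ 2 : ℚ) : ℝ) = (((1 / 6) ^ 3 : ℚ) : ℝ) := by
      rw [h1]; norm_num
    exact_mod_cast h3
  apply rat_two_sq (36 * p) (36 * q)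
  linear_combination 1296 * h2

/-- a product of three complex numbers of squared modulus `1/6` is not in `ℚ(√-3)` -/
theorem triple_not_omega (a b c : ℂ) (ha : ‖a‖ ^ 2 = 1 / 6) (hb : ‖b‖ ^ 2 = 1 / 6)
    (hc : ‖c‖ ^ 2 = 1 / 6) (p q : ℚ) : a * b * c ≠ (p : ℂ) + (q : ℂ) * omega := by
  intro h
  have h1 : Complex.normSq (a * b * c) = (1 / 6) ^ 3 := by
    rw [Complex.normSq_mul, Complex.normSq_mul, Complex.normSq_eq_norm_sq,
      Complex.normSq_eq_norm_sq, Complex.normSq_eq_norm_sq, ha, hb, hc]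
    ring
  rw [h, normSq_rat_omega] at h1
  have h2 : (p ^ 2 - p * q + q ^ 2 : ℚ) = (1 / 6) ^ 3 := by
    have h3 : ((p ^ 2 - p * q + q ^ 2 : ℚ) : ℝ) = (((1 / 6) ^ 3 : ℚ) : ℝ) := by
      rw [h1]; norm_num
    exact_mod_cast h3
  apply rat_eis (36 * p) (36 * q)
  linear_combination 1296 * h2

theorem InK.normSq_rat' {θ : ℂ} {t n : ℚ} (hθ : QuadGen θ t n) {z : ℂ} (hz : InK θ z) :
    ∃ r : ℚ, Complex.normSq z = (r : ℝ) := by
  obtain ⟨r, hr⟩ := hz.normSq_rat hθ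
  exact ⟨r, by exact_mod_cast hr⟩

/-- the inner product of two multiples of vectors -/
theorem inner_of_mul (x y : EuclideanSpace ℂ (Fin 6)) (c1 c2 : ℂ) (u v : Fin 6 → ℂ)
    (hx : ∀ k, x k = c1 * u k) (hy : ∀ k, y k = c2 * v k) :
    inner ℂ x y = c2 * (starRingEnd ℂ) c1 * ∑ k, v k * (starRingEnd ℂ) (u k) := by
  rw [PiLp.inner_apply, Finset.mul_sum]
  apply Finset.sum_congr rfl
  intro k _
  rw [RCLike.inner_apply]
  have h1 : x.ofLp k = c1 * u k := hx k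
  have h2 : y.ofLp k = c2 * v k := hy k
  rw [h1, h2, map_mul]
  ring

/-- a unit vector that is a multiple of a vector over `ℚ + ℚ θ`: normal form -/
theorem ratMultiple_unit {θ : ℂ} {t n : ℚ} (hθ : QuadGen θ t n) (x : EuclideanSpace ℂ (Fin 6))
    (hx : ‖x‖ = 1) (h : RatMultiple θ x) :
    ∃ (c : ℂ) (u : Fin 6 → ℂ) (r : ℚ), (∀ k, InK θ (u k)) ∧ (∀ k, x k = c * u k) ∧
      c * (starRingEnd ℂ) c = (r : ℂ) := by
  obtain ⟨c, p, q, hpq⟩ := h
  have hu : ∀ k, InK θ ((p k : ℂ) + (q k : ℂ) * θ) := fun k => ⟨p k, q k, rfl⟩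
  choose r hr using fun k => (hu k).normSq_rat' hθ
  have h1 : ‖x‖ ^ 2 = ∑ k, Complex.normSq (x k) := by
    rw [EuclideanSpace.norm_sq_eq]
    simp [Complex.normSq_eq_norm_sq]
  have h2 : Complex.normSq c * ((∑ k, r k : ℚ) : ℝ) = 1 := by
    rw [hx] at h1
    push_cast
    rw [Finset.mul_sum]
    have : ∀ k, Complex.normSq (x k) = Complex.normSq c * (r k : ℝ) := by
      intro k
      rw [hpq k, Complex.normSq_mul, hr k]
    rw [Finset.sum_congr rfl (fun k _ => this k)] at h1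
    linarith
  have hne : ((∑ k, r k : ℚ) : ℝ) ≠ 0 := by
    intro h0
    rw [h0, mul_zero] at h2
    exact zero_ne_one h2
  refine ⟨c, fun k => (p k : ℂ) + (q k : ℂ) * θ, (∑ k, r k)⁻¹, hu, hpq, ?_⟩
  rw [Complex.mul_conj]
  have h3 : Complex.normSq c = (((∑ k, r k)⁻¹ : ℚ) : ℝ) := by
    push_cast at hne ⊢
    field_simp
    push_cast at h2
    linarith
  rw [h3]
  push_cast
  rfl

/-- if three unit vectors are multiples of vectors over `ℚ + ℚ θ`, their Bargmann invariant lies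
in `ℚ + ℚ θ` -/
theorem bargmann_inK {θ : ℂ} {t n : ℚ} (hθ : QuadGen θ t n) (x y z : EuclideanSpace ℂ (Fin 6))
    (hx : ‖x‖ = 1) (hy : ‖y‖ = 1) (hz : ‖z‖ = 1)
    (rx : RatMultiple θ x) (ry : RatMultiple θ y) (rz : RatMultiple θ z) :
    InK θ (inner ℂ x y * inner ℂ y z * inner ℂ z x) := by
  obtain ⟨c1, u, r1, hu, hxu, hc1⟩ := ratMultiple_unit hθ x hx rx
  obtain ⟨c2, v, r2, hv, hyv, hc2⟩ := ratMultiple_unit hθ y hy ry
  obtain ⟨c3, w, r3, hw, hzw, hc3⟩ := ratMultiple_unit hθ z hz rz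
  rw [inner_of_mul x y c1 c2 u v hxu hyv, inner_of_mul y z c2 c3 v w hyv hzw,
    inner_of_mul z x c3 c1 w u hzw hxu]
  have hS : ∀ (f g : Fin 6 → ℂ), (∀ k, InK θ (f k)) → (∀ k, InK θ (g k)) →
      InK θ (∑ k, g k * (starRingEnd ℂ) (f k)) := by
    intro f g hf hg
    exact InK.sum _ _ (fun k _ => (hg k).mul hθ ((hf k).conj hθ))
  have e : c2 * (starRingEnd ℂ) c1 * (∑ k, v k * (starRingEnd ℂ) (u k))
      * (c3 * (starRingEnd ℂ) c2 * ∑ k, w k * (starRingEnd ℂ) (v k))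
      * (c1 * (starRingEnd ℂ) c3 * ∑ k, u k * (starRingEnd ℂ) (w k))
      = ((r1 * r2 * r3 : ℚ) : ℂ) * ((∑ k, v k * (starRingEnd ℂ) (u k))
        * (∑ k, w k * (starRingEnd ℂ) (v k)) * (∑ k, u k * (starRingEnd ℂ) (w k))) := by
    push_cast
    rw [← hc1, ← hc2, ← hc3]
    ring
  rw [e]
  exact InK.ratMul _ (((hS u v hu hv).mul hθ (hS v w hv hw)).mul hθ (hS w u hw hu))

end Vale.Agent.H69.P355
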